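import Vale.Agent.P254.M1.DescN
import Vale.Agent.P254.MC.Defs
import Vale.Agent.P227.M.MM.Desc447

/-! # P254/M1: the descent `StmtDescc` (centred, not necessarily even) -/

open MeasureTheory Filter Set
open scoped Topology

namespace Vale.Agent.P254.M1

open Vale.Agent.P227.M Vale.Agent.P254.MC

variable {n : ℕ}

theorem clsc_qg {k c₀ C₀ m : ℝ} {c : E n → ℝ} (h : Clsc k c₀ C₀ m c) :
    LK.Dsc.Qg (c₀ * (k + 1) / k) (C₀ * (k + 1) / k) c where
  meas := h.reg.smooth.continuous.measurable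
  lo := fun x => by
    have h1 := LL.taylor_lower h.reg 0 x
    rw [h.grad] at h1
    simpa using h1
  hi := fun x => by
    have h1 := LL.taylor_upper h.reg 0 x
    rw [h.grad] at h1
    simpa using h1

theorem reg_pot {V : E n → ℝ} {a b : ℝ} (h : Reg V a b) :
    LK.Dsc.Pot (fun x => V x + Real.log (∫ x, Real.exp (-V x))) := by
  have hi : ∀ {f : E n → ℝ}, Gr f → Integrable fun x : E n => f x * Real.exp (-V x) := fun hf => h.integrable_gr hf
  have hZ := h.Z_pos
  set ZV := ∫ x, Real.exp (-V x) with hZV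
  have he : ∀ x, Real.exp (-(V x + Real.log ZV)) = Real.exp (-V x) * ZV⁻¹ := fun x => by
    rw [neg_add, Real.exp_add, Real.exp_neg (Real.log _), Real.exp_log hZ]
  have hfi : ∀ {f : E n → ℝ}, Gr f → Integrable fun x : E n => f x * Real.exp (-(V x + Real.log ZV)) := fun {f} hf => by
    refine ((hi hf).mul_const ZV⁻¹).congr (ae_of_all _ fun x => ?_)
    simp only [he]
    ring
  refine ⟨(h.smooth.continuous.add continuous_const).measurable, ?_, ?_, ?_, ?_⟩
  · refine (hfi (Gr.const 1)).congr (ae_of_all _ fun x => ?_)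
    simp
  · simp only [he]
    rw [integral_mul_const, ← hZV, mul_inv_cancel₀ hZ.ne']
  · exact hfi (h.gr.add (Gr.const _))
  · exact hfi (Gr.norm.pow 2)

theorem centred_of {V : E n → ℝ} {a b : ℝ} (h : Reg V a b) (hC : MC.Centred V) (r : ℝ) :
    M1.Centred (fun x => V x + r) := by
  intro l
  have hi : ∀ i : Fin n, Integrable fun x : E n => x i * Real.exp (-V x) := fun i => h.integrable_gr (Gr.coord i)
  have h1 : (fun x : E n => (inner ℝ x l : ℝ) * Real.exp (-(V x + r)))
      = fun x => ∑ i, (l i * Real.exp (-r)) * (x i * Real.exp (-V x)) := by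
    ext x
    rw [neg_add, Real.exp_add, PiLp.inner_apply, Finset.sum_mul]
    refine Finset.sum_congr rfl fun i _ => ?_
    simp only [RCLike.inner_apply, conj_trivial]
    ring
  rw [h1, integral_finsetSum _ fun i _ => (hi i).const_mul _]
  refine Finset.sum_eq_zero fun i _ => ?_
  rw [integral_const_mul, hC i, mul_zero]

theorem stmtDescc : StmtDescc := by
  intro n hn V c₀ C₀ m k hV hcen _ hk hcls hphi ε hε
  have hc₀ : 0 < c₀ := hV.c_pos
  have hC₀ : 0 < C₀ := hc₀.trans_le (MM.nice_le hn hV)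
  have hk0 : 0 < k := by linarith
  have hn' : (0 : ℝ) < n := by exact_mod_cast hn
  have hpot := reg_pot hV
  have hZ := hV.Z_pos
  set ZV := ∫ x, Real.exp (-V x) with hZV
  set V' : E n → ℝ := fun x => V x + Real.log ZV with hV'
  have hcen' : M1.Centred V' := centred_of hV hcen _
  have hT : ∀ c : E n → ℝ, ∃ l s, aff (LK.Dsc.T0 k V' c) l s = TKc k V c := by
    intro c
    refine ⟨-((InnerProductSpace.toDual ℝ (E n)).symm (fderiv ℝ (MM.TK k V c) 0)), -((V 0 + Real.log ZV + MM.QK k c 0) / k), ?_⟩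
    funext x
    unfold aff TKc
    rw [inner_neg_right, real_inner_comm, InnerProductSpace.toDual_symm_apply]
    change (V x + Real.log ZV + MM.QK k c x) / k + -(fderiv ℝ (MM.TK k V c) 0 x) + _
      = (V x + MM.QK k c x) / k - (V 0 + MM.QK k c 0) / k - fderiv ℝ (MM.TK k V c) 0 x
    ring
  obtain ⟨c, ⟨i, rfl⟩, hKL⟩ := exists_KL_leA (k := k) (a := c₀ * (k + 1) / k) (b := C₀ * (k + 1) / k) hk0
    (by positivity) (by positivity) hpot hcen' (fun c => ∃ i, c = itKc k c₀ V i) (itKc k c₀ V 0) ⟨0, rfl⟩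
    (by
      rintro _ ⟨i, rfl⟩
      obtain ⟨l, s, h⟩ := hT (itKc k c₀ V i)
      exact ⟨l, s, i + 1, h⟩)
    (by
      rintro _ ⟨i, rfl⟩
      exact clsc_qg (hcls i)) (ε := (ε / 2) ^ 2) (by positivity)
  refine ⟨i, fun F hF hF1 => ?_⟩
  set c := itKc k c₀ V i with hc
  have hφ : LK.Dsc.phi k c = MM.phiK k c := rfl
  have hN := hphi i
  rw [← hc] at hN
  have hA : 0 ≤ k / ((k + 1) * c₀) := by positivity
  have hg : Measurable (gradient (MM.phiK k c)) :=
    (contDiff_gradient (m := 0) (k := 1) (by norm_num) ((LL.reg_two hN).of_le (by norm_num))).continuous.measurable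
  have hsc : ∀ y z, LK.Dsc.phi k c (y + z) ≤ LK.Dsc.phi k c y + inner ℝ (gradient (MM.phiK k c) y) z
      + k / ((k + 1) * c₀) / 2 * ‖z‖ ^ 2 := by
    intro y z
    rw [hφ, inner_gradient]
    exact LL.taylor_upper hN y z
  obtain ⟨l, s, hls⟩ := hT c
  have hTc : LK.Dsc.Qg (c₀ * (k + 1) / k) (C₀ * (k + 1) / k) (aff (LK.Dsc.T0 k V' c) l s) := by
    rw [hls]
    exact clsc_qg (hcls (i + 1))
  have hσ : 0 < Real.sqrt (n / (c₀ * k)) := Real.sqrt_pos.2 (by positivity)
  have hAσ : (Module.finrank ℝ (E n) : ℝ) * (k / ((k + 1) * c₀) / k) ≤ Real.sqrt (n / (c₀ * k)) ^ 2 := by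
    rw [Real.sq_sqrt (by positivity), finrank_euclideanSpace_fin]
    have h1 : k / ((k + 1) * c₀) / k = 1 / ((k + 1) * c₀) := by field_simp
    rw [h1, mul_one_div, div_le_div_iff_of_pos_left hn' (by positivity) (by positivity)]
    nlinarith
  have key := push_errorA (V := V') hk0 (by positivity) (by positivity) hpot (clsc_qg (hcls i)) hTc hA hg hsc hσ hAσ
    (η := ε / 2) (by positivity) hKL (F := F) (L := 1) (M := 1) hF.continuous zero_le_one
    (fun x y => by
      have := hF.dist_le_mul x y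
      rw [Real.dist_eq, dist_eq_norm] at this
      simpa using this) hF1
  have e1 : ∫ x, F x * Real.exp (-V' x) = (∫ x, F x * Real.exp (-V x)) / ZV := by
    rw [← integral_div]
    congr 1
    ext x
    have he : Real.exp (-V' x) = Real.exp (-V x) * ZV⁻¹ := by
      rw [hV']
      simp only
      rw [neg_add, Real.exp_add, Real.exp_neg (Real.log _), Real.exp_log hZ]
    rw [he, div_eq_mul_inv]
    ring
  rw [e1] at key
  have e2 : 1 * Real.sqrt (n / (c₀ * k)) + 2 * 1 * (ε / 2) = Real.sqrt (n / (c₀ * k)) + ε := by ring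
  rw [e2] at key
  exact key

end Vale.Agent.P254.M1
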