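import Vale.Agent.P227.M.LK.DescK
import Vale.Agent.P227.M.LK.Push

/-! # P254/M1: the level-`k` descent without symmetry: everything is invariant under adding affine functions -/

open MeasureTheory Set Filter Topology

namespace Vale.Agent.P254.M1

open Vale.Agent.P227.M.LK.Dsc

set_option linter.unusedSectionVars false

variable {E : Type*} [NormedAddCommGroup E] [InnerProductSpace ℝ E] [FiniteDimensional ℝ E]
  [MeasurableSpace E] [BorelSpace E]

variable {V : E → ℝ} {k a b : ℝ} {c : E → ℝ}

/-- `c` plus an affine function -/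
noncomputable def aff (c : E → ℝ) (l : E) (s : ℝ) (x : E) : ℝ := c x + inner ℝ x l + s

theorem phi_aff (hk : 0 < k) (l : E) (s : ℝ) (y : E) (h : ∀ y, Integrable fun x : E => Real.exp (k * inner ℝ x y - k * c x)) :
    phi k (aff c l s) y = phi k c (y - l) - s := by
  rw [phi_eq, phi_eq]
  have h1 : (fun x : E => Real.exp (k * inner ℝ x y - k * aff c l s x))
      = fun x => Real.exp (k * inner ℝ x (y - l) - k * c x) * Real.exp (-(k * s)) := by
    ext x
    unfold aff
    rw [← Real.exp_add, inner_sub_right]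
    congr 1
    ring
  rw [h1, integral_mul_const, Real.log_mul (integral_exp_pos (h (y - l))).ne' (Real.exp_pos _).ne', Real.log_exp]
  field_simp
  ring

theorem Z_aff (hk : 0 < k) (l : E) (s : ℝ) (h : ∀ y, Integrable fun x : E => Real.exp (k * inner ℝ x y - k * c x)) :
    Z k (aff c l s) = Z k c * Real.exp s := by
  unfold Z
  have h1 : (fun y : E => Real.exp (-phi k (aff c l s) y)) = fun y => (fun z => Real.exp (-phi k c z) * Real.exp s) (y - l) := by
    ext y
    simp only
    rw [phi_aff hk l s y h, ← Real.exp_add]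
    congr 1
    ring
  rw [h1, integral_sub_right_eq_self (fun z => Real.exp (-phi k c z) * Real.exp s) l, integral_mul_const]

/-- centred target -/
def Centred (V : E → ℝ) : Prop := ∀ l : E, ∫ x : E, inner ℝ x l * Real.exp (-V x) = 0

theorem Pot.int_inner (hV : Pot V) (l : E) : Integrable fun x : E => inner ℝ x l * Real.exp (-V x) := by
  have h3 : Integrable fun x : E => ‖l‖ * (Real.exp (-V x) + ‖x‖ ^ 2 * Real.exp (-V x)) :=
    (hV.int0.add hV.int2).const_mul _
  have hm : Measurable fun x : E => (inner ℝ x l : ℝ) := (continuous_id.inner continuous_const).measurable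
  refine h3.mono' (hm.mul (Real.measurable_exp.comp hV.meas.neg)).aestronglyMeasurable (Eventually.of_forall fun x => ?_)
  rw [Real.norm_eq_abs, abs_mul, abs_of_pos (Real.exp_pos _)]
  have h4 : |(inner ℝ x l : ℝ)| ≤ ‖l‖ * (1 + ‖x‖ ^ 2) := by
    have h5 := abs_real_inner_le_norm x l
    have h6 : ‖x‖ ≤ 1 + ‖x‖ ^ 2 := by nlinarith [sq_nonneg (‖x‖ - 1), norm_nonneg x]
    calc |(inner ℝ x l : ℝ)| ≤ ‖x‖ * ‖l‖ := h5
      _ ≤ (1 + ‖x‖ ^ 2) * ‖l‖ := mul_le_mul_of_nonneg_right h6 (norm_nonneg _)
      _ = _ := by ring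
  calc |(inner ℝ x l : ℝ)| * Real.exp (-V x) ≤ (‖l‖ * (1 + ‖x‖ ^ 2)) * Real.exp (-V x) :=
        mul_le_mul_of_nonneg_right h4 (Real.exp_pos _).le
    _ = _ := by ring

theorem J_aff (hk : 0 < k) (ha : 0 < a) (hb : 0 < b) (hV : Pot V) (hC : Centred V) (l : E) (s : ℝ) (h : Qg a b c)
    (hci : Integrable fun x : E => c x * Real.exp (-V x)) :
    J k V (aff c l s) = J k V c := by
  unfold J
  rw [Z_aff hk l s (h.int1 hk ha), Real.log_mul (h.Z_pos hk ha hb).ne' (Real.exp_pos _).ne', Real.log_exp]
  have h1 : (fun x : E => aff c l s x * Real.exp (-V x))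
      = fun x => c x * Real.exp (-V x) + inner ℝ x l * Real.exp (-V x) + s * Real.exp (-V x) := by
    ext x
    unfold aff
    ring
  have i1 : Integrable fun x : E => c x * Real.exp (-V x) + inner ℝ x l * Real.exp (-V x) := hci.add (Pot.int_inner hV l)
  rw [h1, integral_add i1 (hV.int0.const_mul s), integral_add hci (Pot.int_inner hV l), integral_const_mul, hV.one, hC l]
  ring

theorem aff_aff (c : E → ℝ) (l : E) (s : ℝ) : aff (aff c l s) (-l) (-s) = c := by
  ext x
  unfold aff
  rw [inner_neg_right]
  ring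

/-- the key descent inequality for the mass -/
theorem mass_le' (hk : 0 < k) (ha : 0 < a) (hb : 0 < b) (h : Qg a b c) (hTm : Measurable (T0 k V c))
    (hT1 : ∀ y, Integrable fun x : E => Real.exp (k * inner ℝ x y - k * T0 k V c x))
    (hT3 : Integrable fun y : E => Real.exp (-phi k (T0 k V c) y))
    (hVi : Integrable fun x : E => Real.exp (-V x)) (hV1 : ∫ x : E, Real.exp (-V x) = 1) :
    (1 + 1 / k) * Real.log (Z k c) ≤ Real.log (Z k (T0 k V c)) := by
  have hZ := h.Z_pos hk ha hb
  have hZ' : 0 < Z k (T0 k V c) := integral_exp_pos hT3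
  -- the function `t`
  have hkT : ∀ x, k * T0 k V c x = V x + Q k c x := fun x => by
    unfold T0
    field_simp
  have hMV : Measurable V := by
    have h1 : V = fun x => k * T0 k V c x - Q k c x := by
      ext x
      rw [hkT]
      ring
    rw [h1]
    exact (hTm.const_mul k).sub (measurable_Q h.meas)
  have hFm : Measurable fun p : E × E => Real.exp (k * inner ℝ p.1 p.2 - k * T0 k V c p.1 - (k + 1) * phi k c p.2) := by
    have : Measurable fun p : E × E => (inner ℝ p.1 p.2 : ℝ) := (continuous_fst.inner continuous_snd).measurable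
    exact Real.measurable_exp.comp (((this.const_mul k).sub ((hTm.comp measurable_fst).const_mul k)).sub
      (((measurable_phi h.meas).comp measurable_snd).const_mul (k + 1)))
  have hinner : ∀ x : E, ∫ y : E, Real.exp (k * inner ℝ x y - k * T0 k V c x - (k + 1) * phi k c y) = Real.exp (-V x) := by
    intro x
    have h1 : (fun y : E => Real.exp (k * inner ℝ x y - k * T0 k V c x - (k + 1) * phi k c y))
        = fun y : E => Real.exp (k * inner ℝ x y - (k + 1) * phi k c y) * Real.exp (-(k * T0 k V c x)) := by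
      ext y
      rw [← Real.exp_add]
      congr 1
      ring
    rw [h1, integral_mul_const, ← exp_Q (h.int2 hk ha hb x), ← Real.exp_add, hkT]
    congr 1
    ring
  have hFi : Integrable (fun p : E × E => Real.exp (k * inner ℝ p.1 p.2 - k * T0 k V c p.1 - (k + 1) * phi k c p.2))
      ((volume : Measure E).prod volume) := by
    rw [integrable_prod_iff hFm.aestronglyMeasurable]
    refine ⟨Eventually.of_forall fun x => ?_, ?_⟩
    · have := (h.int2 hk ha hb x).mul_const (Real.exp (-(k * T0 k V c x)))
      refine this.congr (Eventually.of_forall fun y => ?_)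
      simp only
      rw [← Real.exp_add]
      congr 1
      ring
    · refine hVi.congr (Eventually.of_forall fun x => ?_)
      simp only [Real.norm_eq_abs, abs_of_pos (Real.exp_pos _)]
      exact (hinner x).symm
  have hswap := integral_integral_swap
    (f := fun (x y : E) => Real.exp (k * inner ℝ x y - k * T0 k V c x - (k + 1) * phi k c y)) hFi
  simp only [hinner] at hswap
  rw [hV1] at hswap
  have hy : ∀ y : E, ∫ x : E, Real.exp (k * inner ℝ x y - k * T0 k V c x - (k + 1) * phi k c y)
      = Real.exp (-phi k c y) * Real.exp (k * (phi k (T0 k V c) y - phi k c y)) := by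
    intro y
    have h1 : (fun x : E => Real.exp (k * inner ℝ x y - k * T0 k V c x - (k + 1) * phi k c y))
        = fun x : E => Real.exp (k * inner ℝ x y - k * T0 k V c x) * Real.exp (-((k + 1) * phi k c y)) := by
      ext x
      rw [← Real.exp_add]
      congr 1
    rw [h1, integral_mul_const, ← exp_phi hk (hT1 y), ← Real.exp_add, ← Real.exp_add]
    congr 1
    ring
  have hti : Integrable fun y : E => Real.exp (-phi k c y) * Real.exp (k * (phi k (T0 k V c) y - phi k c y)) := by
    refine hFi.integral_prod_right.congr (Eventually.of_forall fun y => ?_)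
    exact hy y
  have ht1 : ∫ y : E, Real.exp (-phi k c y) * Real.exp (k * (phi k (T0 k V c) y - phi k c y)) = 1 := by
    rw [hswap]
    congr 1
    ext y
    exact (hy y).symm
  -- pointwise inequality
  have hpt : ∀ y : E, Real.exp ((1 / k) * Real.log (Z k c)) * ((1 + 1 / k) * Real.exp (-phi k c y)
      - (Z k c / k) * (Real.exp (-phi k c y) * Real.exp (k * (phi k (T0 k V c) y - phi k c y))))
      ≤ Real.exp (-phi k (T0 k V c) y) := by
    intro y
    set t := Real.exp (k * (phi k (T0 k V c) y - phi k c y)) with ht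
    have htp : 0 < t := Real.exp_pos _
    have h1 : Real.exp (-phi k (T0 k V c) y) = Real.exp ((1 / k) * Real.log (Z k c)) * (Real.exp (-phi k c y)
        * Real.exp (-(1 / k) * Real.log (t * Z k c))) := by
      rw [Real.log_mul htp.ne' hZ.ne', ht, Real.log_exp, ← Real.exp_add, ← Real.exp_add]
      congr 1
      field_simp
      ring
    rw [h1]
    refine mul_le_mul_of_nonneg_left ?_ (Real.exp_pos _).le
    have h2 : 1 - (1 / k) * (t * Z k c - 1) ≤ Real.exp (-(1 / k) * Real.log (t * Z k c)) := by
      have h3 := Real.add_one_le_exp (-(1 / k) * Real.log (t * Z k c))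
      have h4 := Real.log_le_sub_one_of_pos (mul_pos htp hZ)
      have h5 := mul_le_mul_of_nonneg_left h4 (by positivity : 0 ≤ 1 / k)
      linarith
    calc (1 + 1 / k) * Real.exp (-phi k c y) - Z k c / k * (Real.exp (-phi k c y) * t)
        = Real.exp (-phi k c y) * (1 - (1 / k) * (t * Z k c - 1)) := by ring
      _ ≤ _ := mul_le_mul_of_nonneg_left h2 (Real.exp_pos _).le
  have hint := integral_mono ((((h.int3 hk ha hb).const_mul (1 + 1 / k)).sub (hti.const_mul (Z k c / k))).const_mul
    (Real.exp ((1 / k) * Real.log (Z k c)))) hT3 hpt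
  have hlhs : ∫ y : E, Real.exp ((1 / k) * Real.log (Z k c)) * ((1 + 1 / k) * Real.exp (-phi k c y)
      - (Z k c / k) * (Real.exp (-phi k c y) * Real.exp (k * (phi k (T0 k V c) y - phi k c y))))
      = Real.exp ((1 / k) * Real.log (Z k c)) * Z k c := by
    rw [integral_const_mul, integral_sub ((h.int3 hk ha hb).const_mul _) (hti.const_mul _), integral_const_mul,
      integral_const_mul, ht1]
    unfold Z
    ring
  have hfin : Real.exp ((1 / k) * Real.log (Z k c)) * Z k c ≤ Z k (T0 k V c) := by
    rw [← hlhs]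
    exact hint
  have := Real.log_le_log (by positivity) hfin
  rw [Real.log_mul (Real.exp_pos _).ne' hZ.ne', Real.log_exp] at this
  linarith

/-- **descent** -/
theorem descent' (hk : 0 < k) (ha : 0 < a) (hb : 0 < b) (h : Qg a b c) (hTm : Measurable (T0 k V c))
    (hT1 : ∀ y, Integrable fun x : E => Real.exp (k * inner ℝ x y - k * T0 k V c x))
    (hT3 : Integrable fun y : E => Real.exp (-phi k (T0 k V c) y))
    (hTi : Integrable fun x : E => T0 k V c x * Real.exp (-V x))
    (hVi : Integrable fun x : E => Real.exp (-V x)) (hV1 : ∫ x : E, Real.exp (-V x) = 1)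
    (hVV : Integrable fun x : E => V x * Real.exp (-V x))
    (hV2 : Integrable fun x : E => ‖x‖ ^ 2 * Real.exp (-V x)) :
    J k V (T0 k V c) ≤ J k V c - KL k V c / k := by
  have hkT : ∀ x, k * T0 k V c x = V x + Q k c x := fun x => by
    unfold T0
    field_simp
  have hMV : Measurable V := by
    have h1 : V = fun x => k * T0 k V c x - Q k c x := by
      ext x
      rw [hkT]
      ring
    rw [h1]
    exact (hTm.const_mul k).sub (measurable_Q h.meas)
  have key : ∀ f : E → ℝ, (∀ x, f 0 + a / 2 * ‖x‖ ^ 2 ≤ f x) → (∀ x, f x ≤ f 0 + b / 2 * ‖x‖ ^ 2) → Measurable f →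
      Integrable fun x : E => f x * Real.exp (-V x) := by
    intro f h1 h2 hf
    have h3 : Integrable fun x : E => |f 0| * Real.exp (-V x) + (|b| / 2) * (‖x‖ ^ 2 * Real.exp (-V x)) :=
      (hVi.const_mul _).add (hV2.const_mul _)
    refine h3.mono' (hf.mul (Real.measurable_exp.comp hMV.neg)).aestronglyMeasurable (Eventually.of_forall fun x => ?_)
    rw [Real.norm_eq_abs, abs_mul, abs_of_pos (Real.exp_pos _)]
    have h4 : |f x| ≤ |f 0| + |b| / 2 * ‖x‖ ^ 2 := by
      have h5 := h1 x
      have h6 := h2 x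
      have h7 : 0 ≤ a / 2 * ‖x‖ ^ 2 := by positivity
      have h8 : b / 2 * ‖x‖ ^ 2 ≤ |b| / 2 * ‖x‖ ^ 2 := by
        have := le_abs_self b
        gcongr
      have h9 := neg_abs_le (f 0)
      have h10 := le_abs_self (f 0)
      rw [abs_le]
      constructor <;> [skip; linarith]
      have h11 : 0 ≤ |b| / 2 * ‖x‖ ^ 2 := by positivity
      linarith
    calc |f x| * Real.exp (-V x) ≤ (|f 0| + |b| / 2 * ‖x‖ ^ 2) * Real.exp (-V x) :=
          mul_le_mul_of_nonneg_right h4 (Real.exp_pos _).le
      _ = _ := by ring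
  have hci := key c h.lo h.hi h.meas
  have hQi : Integrable fun x : E => Q k c x * Real.exp (-V x) := by
    refine ((hTi.const_mul k).sub hVV).congr (Eventually.of_forall fun x => ?_)
    simp only [Pi.sub_apply]
    rw [← mul_assoc, hkT]
    ring
  have e1 : ∫ x : E, T0 k V c x * Real.exp (-V x)
      = (1 / k) * ((∫ x : E, V x * Real.exp (-V x)) + ∫ x : E, Q k c x * Real.exp (-V x)) := by
    rw [← integral_add hVV hQi, ← integral_const_mul]
    congr 1
    ext x
    unfold T0
    field_simp
  have e2 : KL k V c = k * (∫ x : E, c x * Real.exp (-V x)) - (∫ x : E, Q k c x * Real.exp (-V x))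
      + Real.log (Z k c) - ∫ x : E, V x * Real.exp (-V x) := by
    unfold KL
    have h1 : (fun x : E => (W k c x - V x) * Real.exp (-V x)) = fun x => ((k * (c x * Real.exp (-V x))
        - Q k c x * Real.exp (-V x)) + Real.log (Z k c) * Real.exp (-V x)) - V x * Real.exp (-V x) := by
      ext x
      unfold W
      ring
    have i1 : Integrable fun x : E => k * (c x * Real.exp (-V x)) := hci.const_mul k
    have i2 : Integrable fun x : E => k * (c x * Real.exp (-V x)) - Q k c x * Real.exp (-V x) := i1.sub hQi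
    have i3 : Integrable fun x : E => Real.log (Z k c) * Real.exp (-V x) := hVi.const_mul _
    have i4 : Integrable fun x : E => k * (c x * Real.exp (-V x)) - Q k c x * Real.exp (-V x)
      + Real.log (Z k c) * Real.exp (-V x) := i2.add i3
    rw [h1, integral_sub i4 hVV, integral_add i2 i3, integral_sub i1 hQi,
      integral_const_mul, integral_const_mul, hV1, mul_one]
  have h3 := mass_le' hk ha hb h hTm hT1 hT3 hVi hV1
  unfold J
  rw [e1, e2]
  have e3 : (k * (∫ x : E, c x * Real.exp (-V x)) - (∫ x : E, Q k c x * Real.exp (-V x))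
      + Real.log (Z k c) - ∫ x : E, V x * Real.exp (-V x)) / k = (∫ x : E, c x * Real.exp (-V x))
      - (1 / k) * (∫ x : E, Q k c x * Real.exp (-V x)) + (1 / k) * Real.log (Z k c)
      - (1 / k) * ∫ x : E, V x * Real.exp (-V x) := by
    field_simp
  rw [e3]
  nlinarith [h3]

/-! ### facts for `T0` from facts for an affine renormalisation of it -/

theorem meas_of_aff {f : E → ℝ} {l : E} {s : ℝ} (h : Measurable (aff f l s)) : Measurable f := by
  have hm : Measurable fun x : E => (inner ℝ x l : ℝ) := (continuous_id.inner continuous_const).measurable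
  have h1 : f = fun x => aff f l s x - inner ℝ x l - s := by
    ext x
    unfold aff
    ring
  rw [h1]
  exact (h.sub hm).sub_const s

theorem int1_of_aff {f : E → ℝ} {l : E} {s : ℝ}
    (h : ∀ y, Integrable fun x : E => Real.exp (k * inner ℝ x y - k * aff f l s x)) (y : E) :
    Integrable fun x : E => Real.exp (k * inner ℝ x y - k * f x) := by
  refine ((h (y + l)).mul_const (Real.exp (k * s))).congr (Eventually.of_forall fun x => ?_)
  simp only
  rw [← Real.exp_add]
  unfold aff
  rw [inner_add_right]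
  congr 1
  ring

theorem int3_of_aff (hk : 0 < k) {f : E → ℝ} {l : E} {s : ℝ}
    (h : ∀ y, Integrable fun x : E => Real.exp (k * inner ℝ x y - k * aff f l s x))
    (h3 : Integrable fun y : E => Real.exp (-phi k (aff f l s) y)) :
    Integrable fun y : E => Real.exp (-phi k f y) := by
  have h4 := (h3.comp_add_right l).mul_const (Real.exp (-s))
  refine h4.congr (Eventually.of_forall fun y => ?_)
  simp only
  rw [phi_aff hk l s (y + l) (int1_of_aff h), ← Real.exp_add, add_sub_cancel_right]
  congr 1
  ring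

theorem int_of_aff (hV : Pot V) {f : E → ℝ} {l : E} {s : ℝ}
    (h : Integrable fun x : E => aff f l s x * Real.exp (-V x)) : Integrable fun x : E => f x * Real.exp (-V x) := by
  refine ((h.sub (Pot.int_inner hV l)).sub (hV.int0.const_mul s)).congr (Eventually.of_forall fun x => ?_)
  simp only [Pi.sub_apply]
  unfold aff
  ring

/-- descent with an arbitrary affine renormalisation -/
theorem descentA (hk : 0 < k) (ha : 0 < a) (hb : 0 < b) (hV : Pot V) (hC : Centred V) (h : Qg a b c) {l : E} {s : ℝ}
    (hT : Qg a b (aff (T0 k V c) l s)) :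
    J k V (aff (T0 k V c) l s) ≤ J k V c - KL k V c / k := by
  have hc' : aff (aff (T0 k V c) l s) (-l) (-s) = T0 k V c := aff_aff _ _ _
  have hJ : J k V (T0 k V c) = J k V (aff (T0 k V c) l s) := by
    conv_lhs => rw [← hc']
    exact J_aff hk ha hb hV hC (-l) (-s) hT (hT.integrable ha hb hV)
  rw [← hJ]
  exact descent' hk ha hb h (meas_of_aff hT.meas) (int1_of_aff (hT.int1 hk ha)) (int3_of_aff hk (hT.int1 hk ha) (hT.int3 hk ha hb))
    (int_of_aff hV (hT.integrable ha hb hV)) hV.int0 hV.one hV.intV hV.int2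

/-- **small relative entropy along the iteration**, for any class `P` invariant up to affine functions -/
theorem exists_KL_leA (hk : 0 < k) (ha : 0 < a) (hb : 0 < b) (hV : Pot V) (hC : Centred V) (P : (E → ℝ) → Prop) (c₀ : E → ℝ)
    (h0 : P c₀) (hPT : ∀ c, P c → ∃ l s, P (aff (T0 k V c) l s)) (hPG : ∀ c, P c → Qg a b c) {ε : ℝ} (hε : 0 < ε) :
    ∃ c, P c ∧ KL k V c ≤ ε := by
  by_contra hcon
  simp only [not_exists, not_and, not_le] at hcon
  have hJi : ∀ i : ℕ, ∃ c, P c ∧ J k V c ≤ J k V c₀ - i * (ε / k) := by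
    intro i
    induction i with
    | zero => exact ⟨c₀, h0, by simp⟩
    | succ i ih =>
      obtain ⟨c, hc, hJ⟩ := ih
      obtain ⟨l, s, hP⟩ := hPT c hc
      refine ⟨_, hP, ?_⟩
      have h1 := descentA hk ha hb hV hC (hPG _ hc) (hPG _ hP)
      have h2 := (hcon _ hc).le
      have h3 : ε / k ≤ KL k V c / k := by gcongr
      push_cast
      linarith
  set m := gc E k b - Real.log (∫ y : E, Real.exp (-(1 * (1 / b / 2 * ‖y‖ ^ 2)))) with hm
  obtain ⟨i, hi⟩ := exists_nat_gt ((J k V c₀ - m) / (ε / k))
  obtain ⟨c, hc, hJ⟩ := hJi i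
  have h1 := (hPG _ hc).J_ge hk ha hb hV.int0 hV.one ((hPG _ hc).integrable ha hb hV)
  rw [← hm] at h1
  rw [div_lt_iff₀ (by positivity)] at hi
  linarith

/-- **push-forward error at level `k`** -/
theorem push_errorA {A : ℝ} (hk : 0 < k) (ha : 0 < a) (hb : 0 < b) (hV : Pot V) (h : Qg a b c) {l : E} {s : ℝ}
    (hT : Qg a b (aff (T0 k V c) l s))
    (hA : 0 ≤ A) {g : E → E} (hg : Measurable g)
    (hsc : ∀ y z, phi k c (y + z) ≤ phi k c y + inner ℝ (g y) z + A / 2 * ‖z‖ ^ 2) {σ η : ℝ} (hσ : 0 < σ)
    (hAσ : Module.finrank ℝ E * (A / k) ≤ σ ^ 2) (hη : 0 < η) (hKL : KL k V c ≤ η ^ 2) {F : E → ℝ} {L M : ℝ}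
    (hF : Continuous F) (hL0 : 0 ≤ L) (hL : ∀ x y, |F x - F y| ≤ L * ‖x - y‖) (hM : ∀ x, |F x| ≤ M) :
    |(∫ y, F (g y) * Real.exp (-phi k c y)) / Z k c - ∫ x, F x * Real.exp (-V x)| ≤ L * σ + 2 * M * η := by
  have h1 := law_error hk ha hb h hA hg hsc hσ hAσ hF hL0 hL hM
  have hM0 : 0 ≤ M := (abs_nonneg _).trans (hM 0)
  have hci := h.integrable ha hb hV
  have hTi := int_of_aff hV (hT.integrable ha hb hV)
  have hQi : Integrable fun x : E => Q k c x * Real.exp (-V x) := by
    have h2 := (hTi.const_mul k).sub hV.intV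
    refine h2.congr (Eventually.of_forall fun x => ?_)
    simp only [Pi.sub_apply]
    unfold T0
    field_simp
    ring
  have hKi : Integrable fun x : E => (W k c x - V x) * Real.exp (-V x) := by
    have h2 := (((hci.const_mul k).sub hQi).add (hV.int0.const_mul (Real.log (Z k c)))).sub hV.intV
    refine h2.congr (Eventually.of_forall fun x => ?_)
    simp only [Pi.sub_apply, Pi.add_apply]
    unfold W
    ring
  have h2 := Vale.Agent.P227.M.LK.abs_sub_le_of_KL hη hV.int0 (h.integrable_exp_neg_W' hk ha hb) hV.one (h.integral_W hk ha hb) hKi hKL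
    hF.aestronglyMeasurable hM0 hM
  calc |(∫ y, F (g y) * Real.exp (-phi k c y)) / Z k c - ∫ x, F x * Real.exp (-V x)|
      = |((∫ y, F (g y) * Real.exp (-phi k c y)) / Z k c - ∫ x, F x * Real.exp (-W k c x))
        + ((∫ x, F x * Real.exp (-W k c x)) - ∫ x, F x * Real.exp (-V x))| := by ring_nf
    _ ≤ _ := abs_add_le _ _
    _ ≤ L * σ + 2 * M * η := add_le_add h1 h2

end Vale.Agent.P254.M1
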